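import Vale.Agent.P338Z.Ps.Defs

/-!
P338 power saving: the cost of the passes, polynomial time of their control.
-/

namespace Vale.Agent.P338Z

open Vale.Agent.Lib.PolyTime
open Vale.Agent.P338.R3.H968 Vale.Agent.P338.R3.H898
open Vale.Agent.P338.R3.H313

namespace PsCtl

theorem sum_range_le {f : ℕ → ℕ} {c N : ℕ} (h : ∀ u < N, f u ≤ c) :
    ((List.range N).map f).sum ≤ N * c := by
  have h1 := List.sum_le_card_nsmul ((List.range N).map f) c (by
    intro x hx
    obtain ⟨u, hu, rfl⟩ := List.mem_map.1 hx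
    exact h u (List.mem_range.1 hu))
  simpa using h1

theorem pins_in (b : ℕ) (m : Ps) (h : ¬ (m.1 = 0 ∨ m.1 = 2 ∨ m.1 = 5)) {u : ℕ}
    (hu : u < m.2.2.1) :
    (Ctl.reps (pins b m u)).length ≤ 6 ∧ Ctl.wt (pins b m u) + 1 ≤ 13 := by
  rw [not_or, not_or] at h
  unfold pins
  rw [if_neg h.1, if_neg h.2.1, if_neg h.2.2, if_neg (by omega)]
  split_ifs <;> simp [Ctl.reps, Ctl.rep, Ctl.wt]

theorem pins_last (b : ℕ) (m : Ps) (h : ¬ (m.1 = 0 ∨ m.1 = 2 ∨ m.1 = 5)) :
    pins b m m.2.2.1 = [(m.2.2.1, aL)] := by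
  rw [not_or, not_or] at h
  unfold pins
  rw [if_neg h.1, if_neg h.2.1, if_neg h.2.2, if_pos le_rfl]

theorem pins_one (b : ℕ) (m : Ps) (h : m.1 = 0 ∨ m.1 = 2 ∨ m.1 = 5) (u : ℕ) :
    ∃ a, pins b m u = [(m.2.2.1, a)] := by
  unfold pins
  by_cases h0 : m.1 = 0
  · rw [if_pos h0]
    exact ⟨_, rfl⟩
  · by_cases h2 : m.1 = 2
    · rw [if_neg h0, if_pos h2]
      exact ⟨_, rfl⟩
    · rw [if_neg h0, if_neg h2, if_pos (by omega)]
      exact ⟨_, rfl⟩

theorem pins_opc (b : ℕ) (m : Ps) (u : ℕ) : ∀ y ∈ pins b m u, y.2.1 ≠ 10 := by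
  unfold pins
  split_ifs <;> simp [Act.c]

end PsCtl

open PsCtl

theorem pcost : PCOST := by
  intro b m
  refine ⟨?_, ?_, ?_⟩
  · unfold pacts plen
    split_ifs with h
    · obtain ⟨a, ha⟩ := pins_one b m h 0
      simp only [List.range_one, List.flatMap_cons, List.flatMap_nil, List.append_nil, ha, Ctl.reps,
        Ctl.rep, List.length_replicate]
      omega
    · rw [List.range_succ, List.flatMap_append, List.length_append, List.length_flatMap]
      have h1 := sum_range_le (f := fun u => (Ctl.reps (pins b m u)).length) (c := 6)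
        fun u hu => (pins_in b m h hu).1
      simp only [List.flatMap_cons, List.flatMap_nil, List.append_nil, pins_last b m h, Ctl.reps,
        Ctl.rep, List.length_replicate] at h1 ⊢
      omega
  · unfold piters plen
    split_ifs with h
    · obtain ⟨a, ha⟩ := pins_one b m h 0
      simp only [List.range_one, List.map_cons, List.map_nil, List.sum_cons, List.sum_nil, ha,
        Ctl.wt]
      omega
    · rw [List.range_succ, List.map_append, List.sum_append]
      have h1 := sum_range_le (f := fun u => Ctl.wt (pins b m u) + 1) (c := 13)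
        fun u hu => (pins_in b m h hu).2
      have h2 : Ctl.wt (pins b m m.2.2.1) = m.2.2.1 + 1 := by
        rw [pins_last b m h]
        simp [Ctl.wt]
      simp only [List.map_cons, List.map_nil, List.sum_cons, List.sum_nil, h2]
      omega
  · intro a ha
    simp only [pacts, Ctl.reps, Ctl.rep, List.mem_flatMap] at ha
    obtain ⟨u, -, y, hy, h⟩ := ha
    rw [List.eq_of_mem_replicate h]
    exact pins_opc b m u y hy

theorem length_acts (b : ℕ) (L : List Ps) : (acts b L).length ≤ 8 * sz L := by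
  rw [acts, List.length_flatMap, sz, ← List.sum_map_mul_left]
  exact List.sum_le_sum fun m _ => (pcost b m).1

theorem sum_piters (b : ℕ) (L : List Ps) : (L.map (piters b)).sum ≤ 24 * sz L := by
  rw [sz, ← List.sum_map_mul_left]
  exact List.sum_le_sum fun m _ => (pcost b m).2.1

theorem acts_ne (b : ℕ) (L : List Ps) : ∀ a ∈ acts b L, a.1 ≠ 10 := by
  intro a ha
  obtain ⟨m, -, h⟩ := List.mem_flatMap.1 ha
  exact (pcost b m).2.2 a h

theorem length_le_sz (L : List Ps) : L.length ≤ sz L := by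
  induction L with
  | nil => exact le_rfl
  | cons m L ih =>
    rw [List.length_cons, sz_cons]
    omega

theorem sz_permL (N c : ℕ) (s s' : ℕ → Sel) : sz (permL N c s s') = (2 * c + 1) * (N + 1) := by
  simp [permL, sz, pGat, pFlp, pSct, Function.comp_def]
  ring

theorem sz_accL (o N n : ℕ) (s s' : Sel) : sz (accL o N n s s') = 2 * N + n + 3 := by
  simp only [accL, sz_cons, sz_nil, pGat, pFlp, pSct]
  omega

theorem sz_relL (N n : ℕ) (s s' : Sel) : sz (relL N n s s') = 3 * N + n + 4 := by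
  simp only [relL, sz_cons, sz_nil, pGat, pFlp, pSct]
  omega

theorem sz_subL (k : ℕ) (L : List Ps) : sz (subL k L) = sz L + 2 * k + 2 := by
  simp only [subL, sz_append, sz_cons, sz_nil, pMv]
  omega

/-! ### polynomial time -/

section pt

variable {A : Set Word} {α : Type*} [Enc α]

theorem pt_fl {B Q : α → ℕ} (hB : PT A B) (hQ : PT A Q) : PT A fun a => fl (B a) (Q a) :=
  hB.pair (hQ.pair (PT.const ((1 : ℕ), (0 : ℕ))))

theorem pt_fev {f : α → Fl} {u : α → ℕ} (hf : PT A f) (hu : PT A u) :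
    PT A fun a => fev (f a) (u a) :=
  (((hu.div hf.fst).mod hf.snd.fst).div hf.snd.snd.fst).mod hf.snd.snd.snd

theorem pt_pev {e : α → Pl} {u : α → ℕ} (he : PT A e) (hu : PT A u) :
    PT A fun a => pev (e a) (u a) := by
  unfold pev
  refine PT.sum (PT.map (f := fun a (t : ℕ × List Fl) => t.1 * (t.2.map fun f => fev f (u a)).prod)
    he (PT.mul PT.snd'.fst (PT.prod ?_)))
  exact PT.map (f := fun (q : α × ℕ × List Fl) (f : Fl) => fev f (u q.1)) PT.snd'.snd
    (pt_fev PT.snd' (hu.comp PT.fst'.fst))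

theorem pt_psm {c : α → ℕ} {e : α → Pl} (hc : PT A c) (he : PT A e) :
    PT A fun a => psm (c a) (e a) :=
  PT.map (f := fun a (t : ℕ × List Fl) => (c a * t.1, t.2)) he
    ((PT.mul (hc.comp PT.fst') PT.snd'.fst).pair PT.snd'.snd)

theorem pt_cev {c : α → Cm} {u : α → ℕ} (hc : PT A c) (hu : PT A u) :
    PT A fun a => cev (c a) (u a) :=
  PT.xor hc.fst (PT.lt ((pt_pev hc.snd.fst hu).mod hc.snd.snd.fst)
    ((pt_pev hc.snd.snd.snd.fst hu).mod hc.snd.snd.snd.snd))

theorem pt_sev {s : α → Sel} {u : α → ℕ} (hs : PT A s) (hu : PT A u) :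
    PT A fun a => sev (s a) (u a) :=
  PT.all (f := fun a (c : Cm) => cev c (u a)) hs (pt_cev PT.snd' (hu.comp PT.fst'))

theorem pt_one {β : Type*} [Enc β] {x : α → β} (hx : PT A x) : PT A fun a => [x a] :=
  PT.cons hx (PT.const [])

theorem pt_selEq {f : α → Fl} {j : α → ℕ} (hf : PT A f) (hj : PT A j) :
    PT A fun a => selEq (f a) (j a) := by
  have h1 : PT A fun a => ([(1, [f a])] : Pl) := pt_one ((PT.const 1).pair (pt_one hf))
  have h2 : PT A fun a => ([(j a + 1, [])] : Pl) :=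
    pt_one ((hj.add (PT.const 1)).pair (PT.const []))
  have h3 : PT A fun a => ([(j a, [])] : Pl) := pt_one (hj.pair (PT.const []))
  exact PT.cons ((PT.const false).pair (h1.pair ((PT.const 0).pair (h2.pair (PT.const 0)))))
    (pt_one ((PT.const true).pair (h1.pair ((PT.const 0).pair (h3.pair (PT.const 0))))))

theorem pt_mkPs {t v n : α → ℕ} {s : α → Sel} {e : α → Pl} {tab : α → List (ℤ × ℤ)}
    (ht : PT A t) (hv : PT A v) (hn : PT A n) (hs : PT A s) (he : PT A e) (htab : PT A tab) :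
    PT A fun a => ((t a, v a, n a, s a, e a, tab a) : Ps) :=
  ht.pair (hv.pair (hn.pair (hs.pair (he.pair htab))))

theorem pt_pMv {d : α → Bool} {k : α → ℕ} (hd : PT A d) (hk : PT A k) :
    PT A fun a => pMv (d a) (k a) :=
  pt_mkPs (PT.const 0) (hd.cond (PT.const 1) (PT.const 0)) hk (PT.const []) (PT.const [])
    (PT.const [])

theorem pt_pGat {k N : α → ℕ} {s : α → Sel} (hk : PT A k) (hN : PT A N) (hs : PT A s) :
    PT A fun a => pGat (k a) (N a) (s a) :=
  pt_mkPs (PT.const 1) hk hN hs (PT.const []) (PT.const [])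

theorem pt_pFlp {k : α → ℕ} (hk : PT A k) : PT A fun a => pFlp (k a) :=
  pt_mkPs (PT.const 2) (PT.const 0) hk (PT.const []) (PT.const []) (PT.const [])

theorem pt_pSct {o N : α → ℕ} {s : α → Sel} (ho : PT A o) (hN : PT A N) (hs : PT A s) :
    PT A fun a => pSct (o a) (N a) (s a) :=
  pt_mkPs (PT.const 3) ho hN hs (PT.const []) (PT.const [])

theorem pt_pDia {sh N : α → ℕ} {s : α → Sel} {e : α → Pl} {tab : α → List (ℤ × ℤ)}
    (hh : PT A sh) (hN : PT A N) (hs : PT A s) (he : PT A e) (ht : PT A tab) :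
    PT A fun a => pDia (sh a) (N a) (s a) (e a) (tab a) :=
  pt_mkPs (PT.const 4) hh hN hs he ht

theorem pt_pExt {k : α → ℕ} (hk : PT A k) : PT A fun a => pExt (k a) :=
  pt_mkPs (PT.const 5) (PT.const 0) hk (PT.const []) (PT.const []) (PT.const [])

theorem pt_accL {o N n : α → ℕ} {s s' : α → Sel} (ho : PT A o) (hN : PT A N) (hn : PT A n)
    (hs : PT A s) (hs' : PT A s') : PT A fun a => accL (o a) (N a) (n a) (s a) (s' a) :=
  PT.cons (pt_pGat (PT.const 0) hN hs) (PT.cons (pt_pFlp hn) (pt_one (pt_pSct ho hN hs')))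

theorem pt_relL {N n : α → ℕ} {s s' : α → Sel} (hN : PT A N) (hn : PT A n)
    (hs : PT A s) (hs' : PT A s') : PT A fun a => relL (N a) (n a) (s a) (s' a) :=
  PT.cons (pt_pGat (PT.const 0) hN hs) (PT.cons (pt_pGat (PT.const 2) hN (PT.const []))
    (PT.cons (pt_pFlp hn) (pt_one (pt_pSct (PT.const 0) hN hs'))))

theorem pt_subL {k : α → ℕ} {L : α → List Ps} (hk : PT A k) (hL : PT A L) :
    PT A fun a => subL (k a) (L a) :=
  PT.append (pt_one (pt_pMv (PT.const true) hk))
    (PT.append hL (pt_one (pt_pMv (PT.const false) hk)))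

theorem pt_permL {N c : α → ℕ} {s s' : α → ℕ → Sel} (hN : PT A N) (hc : PT A c) (bc : PBd c)
    (hs : PT A fun q : α × ℕ => s q.1 q.2) (hs' : PT A fun q : α × ℕ => s' q.1 q.2) :
    PT A fun a => permL (N a) (c a) (s a) (s' a) :=
  PT.append (PT.map (f := fun a k => pGat 1 (N a) (s a k)) (PT.range hc bc)
      (pt_pGat (PT.const 1) (hN.comp PT.fst') hs))
    (PT.append (pt_one (pt_pFlp hN))
      (PT.map (f := fun a k => pSct 0 (N a) (s' a k)) (PT.range hc bc)
        (pt_pSct (PT.const 0) (hN.comp PT.fst') hs')))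

theorem pt_dcst {s : α → Sel} {e : α → Pl} {tab : α → List (ℤ × ℤ)} {u : α → ℕ} (hs : PT A s)
    (he : PT A e) (ht : PT A tab) (hu : PT A u) :
    PT A fun a => dcst (s a) (e a) (tab a) (u a) := by
  refine (PT.getD ht ((pt_sev hs hu).cond ((PT.const 1).add ((pt_pev he hu).mod (PT.const 4)))
    (PT.const 0)) (PT.const ((1 : ℤ), (0 : ℤ)))).congr fun a => ?_
  unfold dcst
  cases sev (s a) (u a) <;> rfl

theorem pt_iteB {β : Type*} [Enc β] {c : α → Bool} {f g : α → β} (hc : PT A c) (hf : PT A f)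
    (hg : PT A g) : PT A fun a => if c a = true then f a else g a :=
  (hc.cond hf hg).congr fun a => by cases c a <;> rfl

theorem pt_plen {m : α → Ps} (hm : PT A m) : PT A fun a => plen (m a) :=
  PT.ite (PT.decide_or (hm.fst.eqNat (PT.const 0)) (PT.decide_or (hm.fst.eqNat (PT.const 2))
    (hm.fst.eqNat (PT.const 5)))) (PT.const 1) (hm.snd.snd.fst.add (PT.const 1))

theorem pt_pins {b u : α → ℕ} {m : α → Ps} (hb : PT A b) (bb : PBd b) (hm : PT A m)
    (hu : PT A u) : PT A fun a => pins (b a) (m a) (u a) := by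
  have ht := hm.fst
  have hv := hm.snd.fst
  have hn := hm.snd.snd.fst
  have hs := pt_sev hm.snd.snd.snd.fst hu
  have hd := pt_dcst hm.snd.snd.snd.fst hm.snd.snd.snd.snd.fst hm.snd.snd.snd.snd.snd hu
  have h2 : PT A fun a => (2 : ℤ) ^ min (m a).2.1 (b a) :=
    PT.intPow (PT.const 2) (PT.min hv hb) (bb.mono fun a => min_le_right _ _)
  have w1 := Vale.Agent.P338.R3.H900.PT.wordZ hb bb (PT.intMul hd.fst h2)
  have w2 := Vale.Agent.P338.R3.H900.PT.wordZ hb bb (PT.intMul hd.snd h2)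
  unfold pins
  refine PT.ite (ht.eqNat (PT.const 0)) (pt_one (hn.pair (PT.ite (hv.eqNat (PT.const 1))
    (PT.const aR) (PT.const aL)))) ?_
  refine PT.ite (ht.eqNat (PT.const 2)) (pt_one (hn.pair (PT.const aTr))) ?_
  refine PT.ite (ht.eqNat (PT.const 5)) (pt_one (hn.pair (PT.const aZero))) ?_
  refine PT.ite (hn.le hu) (pt_one (hn.pair (PT.const aL))) ?_
  refine PT.ite (ht.eqNat (PT.const 1)) (pt_iteB hs (PT.ite (hv.eqNat (PT.const 0)) (PT.const _)
    (PT.ite (hv.eqNat (PT.const 1)) (PT.const _) (PT.const _))) (PT.const _)) ?_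
  refine PT.ite (ht.eqNat (PT.const 3)) (pt_iteB hs (pt_one ((PT.const 1).pair
    (PT.ite (hv.eqNat (PT.const 0)) (PT.const aAddR)
      (PT.ite (hv.eqNat (PT.const 1)) (PT.const aSubR) (PT.const aXor))))) (PT.const _)) ?_
  exact PT.ite ((hu.mod (PT.const 2)).eqNat (PT.const 0))
    (pt_one ((PT.const 1).pair ((PT.const 9).pair (w1.pair w2)))) (PT.const [])

end pt

theorem ppt : PPT := fun hb bb hm hu => ⟨pt_plen hm, pt_pins hb bb hm hu⟩

end Vale.Agent.P338Z
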