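import Vale.Agent.P338Z.Ps.Defs

/-!
P338 power saving: diagonal passes and blocks inside blocks.
-/

namespace Vale.Agent.P338Z

open Vale.Agent.P338.R3.H968 Vale.Agent.P338.R3.H898
open Vale.Agent.P338.R3.H313
open Vale.Agent.P338.R3.H900 (wordZ length_wordZ bmod_val_wordZ)

namespace DiaH

variable {P : CPar}

theorem ex_R (D : DS) (x : List Cell) : ∀ l r : List Cell, Ex P (List.replicate x.length aR)
    { D with X := ⟨l, x ++ r⟩ } { D with X := ⟨x.reverse ++ l, r⟩ } := by
  induction x with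
  | nil => exact fun l r => .nil _
  | cons c x ih =>
    intro l r
    rw [List.length_cons, List.replicate_succ]
    refine .cons (.mvR _ c l (x ++ r) rfl) ?_
    simpa using ih (c :: l) r

theorem ex_L (D : DS) (x : List Cell) : ∀ l r : List Cell, Ex P (List.replicate x.length aL)
    { D with X := ⟨x ++ l, r⟩ } { D with X := ⟨l, x.reverse ++ r⟩ } := by
  induction x with
  | nil => exact fun l r => .nil _
  | cons c x ih =>
    intro l r
    rw [List.length_cons, List.replicate_succ]
    refine .cons (.mvL _ c (x ++ l) r rfl) ?_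
    simpa using ih l (c :: r)

theorem fx_L (D : DS) (N : ℕ) (G : ℕ → Cell) (l r : List Cell) : Fx P (List.replicate N aL)
    { D with X := ⟨(arr N G).reverse ++ l, r⟩ } (blk D l N G r) := by
  have h := ex_L (P := P) D (arr N G).reverse l r
  rw [List.length_reverse, length_arr, List.reverse_reverse] at h
  exact Fx.of_ex h

/-- The result of a diagonal pass. -/
def dg (P : CPar) (W : ℕ → List Bool × List Bool) (F : ℕ → Cell) (v : ℕ) : Cell :=
  if v % 2 = 0 then cmRe P (wv (W v).1) (wv (W v).2) (F v) (F (v + 1))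
  else cmIm P (wv (W (v - 1)).1) (wv (W (v - 1)).2) (F (v - 1)) (F v)

theorem arr_two {α : Type*} (n : ℕ) (F : ℕ → α) : arr (n + 2) F = arr n F ++ [F n, F (n + 1)] := by
  rw [arr_add]
  rfl

theorem fx_dg (D : DS) (W : ℕ → List Bool × List Bool) (hW : ∀ u, (W u).1.length = P.b)
    (hW' : ∀ u, (W u).2.length = P.b) (F : ℕ → Cell) (l : List Cell) (k : ℕ) : ∀ r : List Cell,
    Fx P ((List.range (2 * k)).flatMap fun u => if u % 2 = 0 then [aCmul (W u).1 (W u).2] else [])
      { D with X := ⟨l, arr (2 * k) F ++ r⟩ }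
      { D with X := ⟨(arr (2 * k) (dg P W F)).reverse ++ l, r⟩ } := by
  induction k with
  | zero => exact fun r => Fx.refl P _
  | succ k ih =>
    intro r
    have e1 : (2 * k) % 2 = 0 := by omega
    have e2 : ¬ (2 * k + 1) % 2 = 0 := by omega
    rw [show 2 * (k + 1) = 2 * k + 2 from rfl, arr_two, arr_two, List.range_succ, List.range_succ,
      List.flatMap_append, List.flatMap_append, List.flatMap_singleton, List.flatMap_singleton,
      if_pos e1, if_neg e2, List.append_nil, List.append_assoc]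
    refine (ih _).append (Fx.one (.old ?_))
    have h := Ex1.cmul (P := P) { D with X := ⟨(arr (2 * k) (dg P W F)).reverse ++ l,
      [F (2 * k), F (2 * k + 1)] ++ r⟩ } _ _ (F (2 * k)) (F (2 * k + 1)) _ r (hW (2 * k))
      (hW' (2 * k)) rfl
    have e3 : (arr (2 * k) (dg P W F) ++ [dg P W F (2 * k), dg P W F (2 * k + 1)]).reverse ++ l =
        cmIm P (wv (W (2 * k)).1) (wv (W (2 * k)).2) (F (2 * k)) (F (2 * k + 1)) ::
        cmRe P (wv (W (2 * k)).1) (wv (W (2 * k)).2) (F (2 * k)) (F (2 * k + 1)) ::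
        ((arr (2 * k) (dg P W F)).reverse ++ l) := by
      simp [dg, e1]
    rw [e3]
    exact h

/-- The words of the constants. -/
def wd (b sh : ℕ) (s : Sel) (e : Pl) (tab : List (ℤ × ℤ)) (u : ℕ) : List Bool × List Bool :=
  (wordZ b ((dcst s e tab u).1 * 2 ^ min sh b), wordZ b ((dcst s e tab u).2 * 2 ^ min sh b))

theorem pacts_dia (b sh N : ℕ) (s : Sel) (e : Pl) (tab : List (ℤ × ℤ)) :
    acts b [pDia sh N s e tab] = ((List.range N).flatMap fun u =>
      if u % 2 = 0 then [aCmul (wd b sh s e tab u).1 (wd b sh s e tab u).2] else []) ++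
      List.replicate N aL := by
  have e1 : plen (pDia sh N s e tab) = N + 1 := by simp [plen, pDia]
  rw [acts, List.flatMap_singleton, pacts, e1, List.range_succ, List.flatMap_append,
    List.flatMap_singleton]
  congr 1
  · refine List.flatMap_congr fun u hu => ?_
    have h1 : ¬ N ≤ u := not_le.2 (List.mem_range.1 hu)
    by_cases h2 : u % 2 = 0 <;> simp [pins, pDia, h1, h2, Ctl.reps, Ctl.rep, wd]
  · simp [pins, pDia, Ctl.reps, Ctl.rep]

theorem raw (sh N : ℕ) (s : Sel) (e : Pl) (tab : List (ℤ × ℤ)) (hN : 2 ∣ N) :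
    Blk P [pDia sh N s e tab] N fun F F' => F' = dg P (wd P.b sh s e tab) F := by
  obtain ⟨k, rfl⟩ := hN
  intro D l r F
  refine ⟨_, ?_, rfl⟩
  rw [pacts_dia]
  exact (fx_dg D _ (fun u => length_wordZ _ _) (fun u => length_wordZ _ _) F l k r).append
    (fx_L D _ _ l r)

theorem sg_wd {b : ℕ} {z : ℤ} (h : 2 * |z| < 2 ^ b) : sg b (wv (wordZ b z)) = z :=
  bmod_val_wordZ h

theorem sg_small {b : ℕ} {z : ℤ} (h : 2 * |z| < 2 ^ b) : sg b z = z := by
  have h1 := bmod_val_wordZ h
  rw [Vale.Agent.P338.R3.H900.val_wordZ] at h1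
  have e : (2 : ℤ) ^ b = ((2 ^ b : ℕ) : ℤ) := by push_cast; rfl
  rw [e, Int.emod_bmod] at h1
  exact h1

theorem mulw_exact {c : ℤ} (h : 2 * (|c| * 2 ^ P.s) < 2 ^ P.b) (x : Cell) (j : ℕ) :
    cMulw P (wv (wordZ P.b (c * 2 ^ P.s))) x j ≡ c * x j [ZMOD 2 ^ P.b] := by
  have h1 : 2 * |c * 2 ^ P.s| < 2 ^ P.b := by
    rwa [abs_mul, abs_of_pos (by positivity : (0 : ℤ) < 2 ^ P.s)]
  unfold cMulw
  rw [sg_wd h1, ← mul_assoc, Int.mul_ediv_cancel _ (by positivity), mul_comm]
  exact (sg_congr P.b (x j)).mul_left c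

theorem dcst_mem (s : Sel) (e : Pl) (tab : List (ℤ × ℤ)) (u : ℕ) :
    dcst s e tab u ∈ (1, 0) :: tab := by
  unfold dcst
  generalize (if sev s u = true then 1 + pev e u % 4 else 0) = i
  by_cases h : i < tab.length
  · rw [List.getD_eq_getElem _ _ h]
    exact List.mem_cons_of_mem _ (List.getElem_mem h)
  · rw [List.getD_eq_default _ _ (not_lt.1 h)]
    exact List.mem_cons_self

theorem acts_mv (b : ℕ) (d : Bool) (k : ℕ) :
    acts b [pMv d k] = List.replicate k (bif d then aR else aL) := by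
  cases d <;> simp [acts, pacts, plen, pins, pMv, Ctl.reps, Ctl.rep]

end DiaH

open DiaH

theorem dia : DIA := by
  intro P N s e tab hP hN htab
  have hm : min P.s P.b = P.s := min_eq_left (by have := hP.hb; omega)
  refine (raw P.s N s e tab hN).ceq fun F F' h => ⟨fun u j => if u % 2 = 0 then
    (dcst s e tab u).1 * F u j - (dcst s e tab u).2 * F (u + 1) j else
    (dcst s e tab (u - 1)).2 * F (u - 1) j + (dcst s e tab (u - 1)).1 * F u j,
    fun u _ j _ => ?_, fun v _ j => ?_⟩
  · subst h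
    unfold dg wd
    rw [hm]
    by_cases h2 : u % 2 = 0
    · simp only [if_pos h2]
      have h3 := htab _ (dcst_mem s e tab u)
      exact (mulw_exact h3.1 _ j).sub (mulw_exact h3.2 _ j)
    · simp only [if_neg h2]
      have h3 := htab _ (dcst_mem s e tab (u - 1))
      exact (mulw_exact h3.2 _ j).add (mulw_exact h3.1 _ j)
  · have e1 : (2 * v) % 2 = 0 := by omega
    have e2 : ¬ (2 * v + 1) % 2 = 0 := by omega
    simp only [if_pos e1, if_neg e2, Nat.add_sub_cancel, and_self]

theorem div : DIV := by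
  intro P N γ hP hN hγ
  have hb := hP.hb
  have hw := hP.hw
  have hm : min (P.s - γ) P.b = P.s - γ := min_eq_left (by omega)
  have h0 : ∀ (x : Cell) (j : ℕ), cMulw P (wv (wordZ P.b 0)) x j = 0 := fun x j => by
    unfold cMulw
    rw [sg_wd (by simp), mul_zero, Int.zero_ediv]
  have h1 : ∀ (x : Cell) (j : ℕ), 2 * |x j| < 2 ^ P.b →
      cMulw P (wv (wordZ P.b (2 ^ (P.s - γ)))) x j = x j / 2 ^ γ := fun x j hx => by
    have h2 : 2 * |(2 : ℤ) ^ (P.s - γ)| < 2 ^ P.b := by
      rw [abs_of_pos (by positivity), ← pow_succ']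
      exact pow_lt_pow_right₀ one_lt_two (by omega)
    have h3 : (2 : ℤ) ^ P.s = 2 ^ γ * 2 ^ (P.s - γ) := by
      rw [← pow_add]
      congr 1
      omega
    unfold cMulw
    rw [sg_wd h2, sg_small hx, h3, Int.mul_ediv_mul_of_pos_left _ _ (by positivity)]
  have hd : ∀ u, dcst [] [] [] u = (1, 0) := fun u => by simp [dcst]
  refine (raw (P.s - γ) N [] [] [] hN).ceq fun F F' h => ?_
  by_cases hF : ∀ u < N, ∀ j < P.nw, 2 * |F u j| < 2 ^ P.b
  · refine ⟨fun u j => F u j / 2 ^ γ, fun u hu j hj => ?_, fun _ _ _ _ => rfl⟩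
    subst h
    unfold dg wd
    simp only [hm, hd, one_mul, zero_mul]
    by_cases h2 : u % 2 = 0
    · simp only [if_pos h2, cmRe, cSub, h0, h1 _ j (hF u hu j hj), sub_zero]
      rfl
    · simp only [if_neg h2, cmIm, cAdd, h0, h1 _ j (hF u hu j hj), zero_add]
      rfl
  · exact ⟨F', fun u _ => CEq.refl P _, fun h' => absurd h' hF⟩

theorem sub : SUB := by
  intro P L n k N R hN hL D l r F
  obtain ⟨m, rfl⟩ : ∃ m, N = k + (n + m) := ⟨N - (k + n), by omega⟩
  obtain ⟨G, h1, h2⟩ := hL D ((arr k F).reverse ++ l) (arr m (fun i => F (k + (n + i))) ++ r)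
    fun u => F (k + u)
  refine ⟨fun v => if k ≤ v ∧ v < k + n then G (v - k) else F v, ?_, ⟨G, h2, fun u hu => ?_⟩,
    fun v _ hv => if_neg (by omega)⟩
  · have e1 : arr (k + (n + m)) F ++ r = arr k F ++
        (arr n (fun u => F (k + u)) ++ (arr m (fun i => F (k + (n + i))) ++ r)) := by
      rw [arr_add, arr_add, List.append_assoc, List.append_assoc]
    have e2 : arr (k + (n + m)) (fun v => if k ≤ v ∧ v < k + n then G (v - k) else F v) ++ r =
        arr k F ++ (arr n G ++ (arr m (fun i => F (k + (n + i))) ++ r)) := by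
      rw [arr_add, arr_add, List.append_assoc, List.append_assoc,
        arr_congr (n := k) (G := F) fun i hi => if_neg (by omega),
        arr_congr (n := n) (G := G) fun i hi => by
          rw [if_pos ⟨by omega, by omega⟩, Nat.add_sub_cancel_left],
        arr_congr (n := m) (G := fun i => F (k + (n + i))) fun i hi => if_neg (by omega)]
    have g1 := ex_R (P := P) D (arr k F) l
      (arr n (fun u => F (k + u)) ++ (arr m (fun i => F (k + (n + i))) ++ r))
    have g2 := ex_L (P := P) D (arr k F).reverse l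
      (arr n G ++ (arr m (fun i => F (k + (n + i))) ++ r))
    rw [List.length_reverse, List.reverse_reverse] at g2
    rw [length_arr] at g1 g2
    unfold subL blk
    rw [acts_append, acts_append, acts_mv, acts_mv, e1, e2]
    exact (Fx.of_ex g1).append (h1.append (Fx.of_ex g2))
  · simp only
    rw [if_pos ⟨by omega, by omega⟩, Nat.add_sub_cancel_left]

end Vale.Agent.P338Z
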