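import Vale.Agent.P338Z.Ps.Sweep

/-!
P338 power saving: accumulation and relocation.
-/

namespace Vale.Agent.P338Z

open Vale.Agent.P338.R3.H968 Vale.Agent.P338.R3.H898
open Vale.Agent.P338.R3.H313

namespace Sw

theorem exists_tr {N n : ℕ} {s s' : Sel} {σ τ : ℕ → ℕ} (h : Enum N n s σ) (h' : Enum N n s' τ)
    (F : ℕ → Cell) : ∃ G : ℕ → Cell, (∀ k < n, G (τ k) = F (σ k)) ∧
      (sel s N).map F = (sel s' N).map G ∧ ((sel s N).map F).length = n := by
  classical
  have key : ∃ G : ℕ → Cell, ∀ k < n, G (τ k) = F (σ k) := by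
    refine ⟨fun v => if e : ∃ k < n, τ k = v then F (σ e.choose) else cZero, fun k hk => ?_⟩
    have e : ∃ j < n, τ j = τ k := ⟨k, hk, rfl⟩
    have e' : e.choose = k := by
      rcases lt_trichotomy e.choose k with a | a | a
      · exact absurd e.choose_spec.2 (h'.mono _ _ a hk).ne
      · exact a
      · exact absurd e.choose_spec.2 (h'.mono _ _ a e.choose_spec.1).ne'
    simp only [dif_pos e, e']
  obtain ⟨G, hG⟩ := key
  refine ⟨G, hG, ?_, by simp [sel_enum h]⟩
  rw [sel_enum h, sel_enum h', List.map_map, List.map_map]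
  exact List.map_congr_left fun k hk => (hG k (List.mem_range.1 hk)).symm

theorem sev_tau {N n : ℕ} {s : Sel} {τ : ℕ → ℕ} (h : Enum N n s τ) {k : ℕ} (hk : k < n) :
    sev s (τ k) = true := (h.sel _ (h.lt k hk)).2 ⟨k, hk, rfl⟩

end Sw

open Sw

theorem acc : ACC := by
  intro P o N n s s' σ τ h h' D l r F
  obtain ⟨G, g1, g2, g3⟩ := exists_tr h h' F
  refine ⟨fun u => if sev s' u then opC P o (F u) (G u) else F u, ?_, fun k hk => ?_,
    fun v _ hv => ?_⟩
  · have a1 := gat0 (P := P) D N s F l r D.A D.B
    have a2 := flp (P := P) D l (arr N F ++ r) D.A D.B ((sel s N).map F).reverse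
      (List.length_reverse.trans g3)
    rw [List.reverse_reverse] at a2
    have a3 := sct (P := P) D N s' F l r D.A D.B o G
    rw [← g2] at a3
    simpa [acts, accL, blk_eq] using a1.append (a2.append a3)
  · simp only [sev_tau h' hk, if_true, g1 k hk]
  · simp [hv]

theorem rel : REL := by
  intro P N n s s' σ τ h h' D l r F
  obtain ⟨G, g1, g2, g3⟩ := exists_tr h h' F
  refine ⟨fun u => if sev s' u then opC P 0 cZero (G u) else cZero, ?_, fun k hk => ?_,
    fun v _ hv => ?_⟩
  · have a1 := gat0 (P := P) D N s F l r D.A D.B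
    have a0 := gat2 (P := P) D N [] F l r (((sel s N).map F).reverse ++ D.A) D.B
    have e : (fun u => if sev [] u then cZero else F u) = fun _ => cZero := by simp [sev]
    rw [e] at a0
    have a2 := flp (P := P) D l (arr N (fun _ => cZero) ++ r) D.A D.B ((sel s N).map F).reverse
      (List.length_reverse.trans g3)
    rw [List.reverse_reverse] at a2
    have a3 := sct (P := P) D N s' (fun _ => cZero) l r D.A D.B 0 G
    rw [← g2] at a3
    simpa [acts, relL, blk_eq] using a1.append (a0.append (a2.append a3))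
  · simp only [sev_tau h' hk, if_true, g1 k hk]
    exact funext fun j => zero_add _
  · simp [hv]

end Vale.Agent.P338Z
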