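import Vale.Agent.P338Z.M.Defs
import Vale.Agent.P338.R3.H900.Wd
import Vale.Agent.P338.R3.H313.StepList

/-!
P338 power saving: the passes.  A pass works on the block of `N` cells in front of the head and
brings the head back to the left end of the block.  Addresses are relative to the block.
-/

namespace Vale.Agent.P338Z

open Vale.Agent.Lib.PolyTime (PT Enc esize PBd)
open Vale.Agent.P338.R3.H968 Vale.Agent.P338.R3.H898
open Vale.Agent.P338.R3.H313

/-- A field of the address: `(B, Q, B', Q')` is `u / B % Q / B' % Q'` (modulus `0`: no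
reduction). -/
abbrev Fl : Type := ℕ × ℕ × ℕ × ℕ

/-- The value of a field. -/
def fev (f : Fl) (u : ℕ) : ℕ := u / f.1 % f.2.1 / f.2.2.1 % f.2.2.2

/-- The simple field `u / B % Q`. -/
def fl (B Q : ℕ) : Fl := (B, Q, 1, 0)

@[simp] theorem fev_fl (B Q u : ℕ) : fev (fl B Q) u = u / B % Q := by simp [fev, fl]

/-- Polynomials in fields: sums of a coefficient times a product of fields. -/
abbrev Pl : Type := List (ℕ × List Fl)

/-- The value of a polynomial. -/
def pev (e : Pl) (u : ℕ) : ℕ := (e.map fun t => t.1 * (t.2.map fun f => fev f u).prod).sum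

/-- Multiple of a polynomial. -/
def psm (c : ℕ) (e : Pl) : Pl := e.map fun t => (c * t.1, t.2)

/-- A comparison: `(n, e, M, e', M')` is `e % M < e' % M'`, negated if `n`. -/
abbrev Cm : Type := Bool × Pl × ℕ × Pl × ℕ

/-- The value of a comparison. -/
def cev (c : Cm) (u : ℕ) : Bool :=
  xor c.1 (decide (pev c.2.1 u % c.2.2.1 < pev c.2.2.2.1 u % c.2.2.2.2))

/-- Selections: conjunctions of comparisons. -/
abbrev Sel : Type := List Cm

/-- The value of a selection. -/
def sev (s : Sel) (u : ℕ) : Bool := s.all fun c => cev c u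

/-- The field `f` has the value `j`. -/
def selEq (f : Fl) (j : ℕ) : Sel :=
  [(false, [(1, [f])], 0, [(j + 1, [])], 0), (true, [(1, [f])], 0, [(j, [])], 0)]

theorem sev_selEq (f : Fl) (j u : ℕ) : sev (selEq f j) u = decide (fev f u = j) := by
  simp only [sev, selEq, cev, pev, List.all_cons, List.all_nil, List.map_cons, List.map_nil,
    List.prod_cons, List.prod_nil, List.sum_cons, List.sum_nil, mul_one, one_mul, add_zero,
    Nat.mod_zero, Bool.and_true, Bool.false_xor, Bool.true_xor]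
  by_cases h : fev f u = j
  · simp [h]
  · rcases Nat.lt_or_gt_of_ne h with h1 | h1
    · simp [h, h1]
    · have h2 : ¬ fev f u < j + 1 := by omega
      simp [h, h2]

/-- Passes: tag, variant, size, selection, polynomial, table. -/
abbrev Ps : Type := ℕ × ℕ × ℕ × Sel × Pl × List (ℤ × ℤ)

/-- Move the head by `k` cells (`d = true`: to the right). -/
def pMv (d : Bool) (k : ℕ) : Ps := (0, bif d then 1 else 0, k, [], [], [])
/-- At the selected cells: push a copy on `A` (`k = 0`), push a copy and clear the cell (`k = 1`),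
clear the cell (`k = 2`). -/
def pGat (k N : ℕ) (s : Sel) : Ps := (1, k, N, s, [], [])
/-- Move `k` cells from `A` to `B`. -/
def pFlp (k : ℕ) : Ps := (2, 0, k, [], [], [])
/-- At the selected cells: pop `B` and add (`o = 0`), subtract (`o = 1`), add bitwise (`o = 2`). -/
def pSct (o N : ℕ) (s : Sel) : Ps := (3, o, N, s, [], [])
/-- Multiply the pairs of cells by the constants of the table times `2 ^ sh / 2 ^ s`. -/
def pDia (sh N : ℕ) (s : Sel) (e : Pl) (tab : List (ℤ × ℤ)) : Ps := (4, sh, N, s, e, tab)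
/-- Append `k` zero cells. -/
def pExt (k : ℕ) : Ps := (5, 0, k, [], [], [])

/-- The constant of a diagonal pass at the cell `u`. -/
def dcst (s : Sel) (e : Pl) (tab : List (ℤ × ℤ)) (u : ℕ) : ℤ × ℤ :=
  tab.getD (if sev s u then 1 + pev e u % 4 else 0) (1, 0)

/-- Number of places of a pass. -/
def plen (m : Ps) : ℕ := if m.1 = 0 ∨ m.1 = 2 ∨ m.1 = 5 then 1 else m.2.2.1 + 1

/-- The instructions of a pass at a place (`b` = length of the words). -/
def pins (b : ℕ) (m : Ps) (u : ℕ) : List (ℕ × Act) :=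
  if m.1 = 0 then [(m.2.2.1, if m.2.1 = 1 then aR else aL)]
  else if m.1 = 2 then [(m.2.2.1, aTr)]
  else if m.1 = 5 then [(m.2.2.1, aZero)]
  else if m.2.2.1 ≤ u then [(m.2.2.1, aL)]
  else if m.1 = 1 then
    (if sev m.2.2.2.1 u then
      (if m.2.1 = 0 then [(1, aPushR)]
      else if m.2.1 = 1 then
        [(1, aPushR), (1, aL), (1, aPushR), (1, aTr), (1, aL), (1, aSubR)]
      else [(1, aPushR), (1, aTr), (1, aL), (1, aSubR)])
    else [(1, aR)])
  else if m.1 = 3 then
    (if sev m.2.2.2.1 u then [(1, if m.2.1 = 0 then aAddR else if m.2.1 = 1 then aSubR else aXor)]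
    else [(1, aR)])
  else if u % 2 = 0 then
    [(1, aCmul
      (Vale.Agent.P338.R3.H900.wordZ b
        ((dcst m.2.2.2.1 m.2.2.2.2.1 m.2.2.2.2.2 u).1 * 2 ^ min m.2.1 b))
      (Vale.Agent.P338.R3.H900.wordZ b
        ((dcst m.2.2.2.1 m.2.2.2.2.1 m.2.2.2.2.2 u).2 * 2 ^ min m.2.1 b)))]
  else []

/-- The acts of a pass. -/
def pacts (b : ℕ) (m : Ps) : List Act :=
  (List.range (plen m)).flatMap fun u => Ctl.reps (pins b m u)

/-- The loop iterations of the control for a pass. -/
def piters (b : ℕ) (m : Ps) : ℕ :=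
  ((List.range (plen m)).map fun u => Ctl.wt (pins b m u) + 1).sum + 1

/-- The acts of a list of passes. -/
def acts (b : ℕ) (L : List Ps) : List Act := L.flatMap (pacts b)

@[simp] theorem acts_nil (b : ℕ) : acts b [] = [] := rfl

@[simp] theorem acts_append (b : ℕ) (L L' : List Ps) :
    acts b (L ++ L') = acts b L ++ acts b L' := by simp [acts]

/-- The size of a list of passes. -/
def sz (L : List Ps) : ℕ := (L.map fun m => m.2.2.1 + 1).sum

@[simp] theorem sz_nil : sz [] = 0 := rfl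

@[simp] theorem sz_cons (m : Ps) (L : List Ps) : sz (m :: L) = m.2.2.1 + 1 + sz L := by simp [sz]

@[simp] theorem sz_append (L L' : List Ps) : sz (L ++ L') = sz L + sz L' := by simp [sz]

theorem sz_flatMap {ι : Type*} (l : List ι) (f : ι → List Ps) :
    sz (l.flatMap f) = (l.map fun i => sz (f i)).sum := by
  induction l with
  | nil => rfl
  | cons a l ih => simp [List.flatMap_cons, ih]

/-- The block `F` of `N` cells in front of the head. -/
def blk (D : DS) (l : List Cell) (N : ℕ) (F : ℕ → Cell) (r : List Cell) : DS :=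
  { D with X := ⟨l, arr N F ++ r⟩ }

/-- The passes `L` turn every block `F` into a block `F'` with `R F F'`; nothing else changes. -/
def Blk (P : CPar) (L : List Ps) (N : ℕ) (R : (ℕ → Cell) → (ℕ → Cell) → Prop) : Prop :=
  ∀ (D : DS) (l r : List Cell) (F : ℕ → Cell),
    ∃ F', Fx P (acts P.b L) (blk D l N F r) (blk D l N F' r) ∧ R F F'

theorem Blk.nil (P : CPar) (N : ℕ) : Blk P [] N fun F F' => F' = F :=
  fun _ _ _ F => ⟨F, Fx.refl P _, rfl⟩

theorem Blk.mono {P : CPar} {L : List Ps} {N : ℕ} {R R' : (ℕ → Cell) → (ℕ → Cell) → Prop}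
    (h : Blk P L N R) (hR : ∀ F F', R F F' → R' F F') : Blk P L N R' := fun D l r F =>
  let ⟨F', h1, h2⟩ := h D l r F
  ⟨F', h1, hR F F' h2⟩

theorem Blk.seq {P : CPar} {L L' : List Ps} {N : ℕ} {R R' : (ℕ → Cell) → (ℕ → Cell) → Prop}
    (h : Blk P L N R) (h' : Blk P L' N R') :
    Blk P (L ++ L') N fun F F'' => ∃ F', R F F' ∧ R' F' F'' := fun D l r F => by
  obtain ⟨F', h1, h2⟩ := h D l r F
  obtain ⟨F'', h3, h4⟩ := h' D l r F'
  refine ⟨F'', ?_, F', h2, h4⟩
  rw [acts_append]
  exact h1.append h3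

theorem fa_arr {P : CPar} {N : ℕ} {F G : ℕ → Cell} (h : ∀ u < N, CEq P (F u) (G u)) :
    List.Forall₂ (CEq P) (arr N F) (arr N G) := by
  unfold arr
  rw [List.forall₂_map_left_iff, List.forall₂_map_right_iff, List.forall₂_same]
  exact fun u hu => h u (List.mem_range.1 hu)

theorem deq_blk {P : CPar} {N : ℕ} {F G : ℕ → Cell} (h : ∀ u < N, CEq P (F u) (G u)) (D : DS)
    (l r : List Cell) : DEq P (blk D l N F r) (blk D l N G r) :=
  ⟨fa_refl P _, List.rel_append (fa_arr h) (fa_refl P _), fa_refl P _, fa_refl P _, rfl, rfl, rfl,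
    rfl, rfl, rfl, rfl, rfl, rfl⟩

/-- The result may be replaced by a block with the same bits. -/
theorem Blk.ceq {P : CPar} {L : List Ps} {N : ℕ} {R R' : (ℕ → Cell) → (ℕ → Cell) → Prop}
    (h : Blk P L N R)
    (hR : ∀ F F', R F F' → ∃ F'', (∀ u < N, CEq P (F' u) (F'' u)) ∧ R' F F'') : Blk P L N R' :=
  fun D l r F => by
    obtain ⟨F', h1, h2⟩ := h D l r F
    obtain ⟨F'', h3, h4⟩ := hR F F' h2
    exact ⟨F'', h1.right (deq_blk h3 D l r), h4⟩

/-- A chain of blocks along a list: `I k` is the invariant after `k` elements. -/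
theorem Blk.chain {P : CPar} {ι : Type*} {N : ℕ} (f : ι → List Ps)
    (R : ι → (ℕ → Cell) → (ℕ → Cell) → Prop) (l : List ι) (h : ∀ i ∈ l, Blk P (f i) N (R i))
    (I : List ι → (ℕ → Cell) → (ℕ → Cell) → Prop) (h0 : ∀ F, I [] F F)
    (hs : ∀ (l₁ : List ι) (i : ι) (l₂ : List ι), l = l₁ ++ i :: l₂ → ∀ F F' F'',
      I l₁ F F' → R i F' F'' → I (l₁ ++ [i]) F F'') :
    Blk P (l.flatMap f) N (I l) := by
  have key : ∀ l₁ l₂ : List ι, l = l₁ ++ l₂ → Blk P (l₁.flatMap f) N (I l₁) := by
    intro l₁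
    induction l₁ using List.reverseRecOn with
    | nil => exact fun _ _ => (Blk.nil P N).mono fun F F' e => e ▸ h0 F
    | append_singleton l₁ i ih =>
      intro l₂ e
      have e' : l = l₁ ++ i :: l₂ := by simpa using e
      have h1 := (ih _ e').seq (h i (by simp [e']))
      rw [List.flatMap_append, List.flatMap_singleton]
      exact h1.mono fun F F'' ⟨F', h2, h3⟩ => hs l₁ i l₂ e' F F' F'' h2 h3
  exact key l [] (by simp)

/-! ### The basic lists of passes -/

/-- A permutation which is monotone on each of the colours `0, …, c - 1`; `s k` selects the sources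
and `s' k` the targets of the colour `k`. -/
def permL (N c : ℕ) (s s' : ℕ → Sel) : List Ps :=
  (List.range c).map (fun k => pGat 1 N (s k)) ++
    ([pFlp N] ++ (List.range c).map fun k => pSct 0 N (s' k))

/-- The `n` cells selected by `s` are combined with the `n` cells selected by `s'`. -/
def accL (o N n : ℕ) (s s' : Sel) : List Ps := [pGat 0 N s, pFlp n, pSct o N s']

/-- The `n` cells selected by `s` move to the cells selected by `s'`, all others become zero. -/
def relL (N n : ℕ) (s s' : Sel) : List Ps := [pGat 0 N s, pGat 2 N [], pFlp n, pSct 0 N s']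

/-- The passes `L` on the block which starts `k` cells to the right. -/
def subL (k : ℕ) (L : List Ps) : List Ps := [pMv true k] ++ (L ++ [pMv false k])

/-- The operation of a scatter pass. -/
def opC (P : CPar) (o : ℕ) (x y : Cell) : Cell :=
  if o = 0 then cAdd x y else if o = 1 then cSub x y else cXor P x y

/-- `σ` enumerates the cells below `N` selected by `s` in increasing order. -/
structure Enum (N n : ℕ) (s : Sel) (σ : ℕ → ℕ) : Prop where
  mono : ∀ k k', k < k' → k' < n → σ k < σ k'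
  lt : ∀ k < n, σ k < N
  sel : ∀ u < N, (sev s u = true ↔ ∃ k < n, σ k = u)

/-! ### Statements -/

/-- Coloured permutations. -/
def PERM : Prop := ∀ (P : CPar) (N c : ℕ) (s s' : ℕ → Sel) (π col : ℕ → ℕ),
  (∀ u < N, π u < N) → (∀ v < N, ∃ u < N, π u = v) → (∀ u < N, col u < c) →
  (∀ u < N, ∀ k < c, sev (s k) u = decide (col u = k)) →
  (∀ u < N, ∀ k < c, sev (s' k) (π u) = decide (col u = k)) →
  (∀ u v, u < v → v < N → col u = col v → π u < π v) →
  Blk P (permL N c s s') N fun F F' => ∀ u < N, F' (π u) = F u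

/-- Accumulation. -/
def ACC : Prop := ∀ (P : CPar) (o N n : ℕ) (s s' : Sel) (σ τ : ℕ → ℕ),
  Enum N n s σ → Enum N n s' τ →
  Blk P (accL o N n s s') N fun F F' =>
    (∀ k < n, F' (τ k) = opC P o (F (τ k)) (F (σ k))) ∧ ∀ v < N, sev s' v = false → F' v = F v

/-- Relocation. -/
def REL : Prop := ∀ (P : CPar) (N n : ℕ) (s s' : Sel) (σ τ : ℕ → ℕ),
  Enum N n s σ → Enum N n s' τ →
  Blk P (relL N n s s') N fun F F' =>
    (∀ k < n, F' (τ k) = F (σ k)) ∧ ∀ v < N, sev s' v = false → F' v = cZero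

/-- Exact multiplication of the pairs of cells by Gaussian integers. -/
def DIA : Prop := ∀ (P : CPar) (N : ℕ) (s : Sel) (e : Pl) (tab : List (ℤ × ℤ)), P.Ok → 2 ∣ N →
  (∀ c ∈ (1, 0) :: tab, 2 * (|c.1| * 2 ^ P.s) < 2 ^ P.b ∧ 2 * (|c.2| * 2 ^ P.s) < 2 ^ P.b) →
  Blk P [pDia P.s N s e tab] N fun F F' => ∀ v, 2 * v < N → ∀ j,
    F' (2 * v) j = (dcst s e tab (2 * v)).1 * F (2 * v) j -
      (dcst s e tab (2 * v)).2 * F (2 * v + 1) j ∧
    F' (2 * v + 1) j = (dcst s e tab (2 * v)).2 * F (2 * v) j +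
      (dcst s e tab (2 * v)).1 * F (2 * v + 1) j

/-- Exact division by a power of two. -/
def DIV : Prop := ∀ (P : CPar) (N γ : ℕ), P.Ok → 2 ∣ N → γ ≤ P.s →
  Blk P [pDia (P.s - γ) N [] [] []] N fun F F' =>
    (∀ u < N, ∀ j < P.nw, 2 * |F u j| < 2 ^ P.b) → ∀ u < N, ∀ j, F' u j = F u j / 2 ^ γ

/-- Blocks inside blocks. -/
def SUB : Prop := ∀ (P : CPar) (L : List Ps) (n k N : ℕ) (R : (ℕ → Cell) → (ℕ → Cell) → Prop),
  k + n ≤ N → Blk P L n R →
  Blk P (subL k L) N fun F F' => (∃ G, R (fun u => F (k + u)) G ∧ ∀ u < n, F' (k + u) = G u) ∧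
    ∀ v < N, v < k ∨ k + n ≤ v → F' v = F v

/-- The cost of the passes, and their control. -/
def PCOST : Prop := ∀ (b : ℕ) (m : Ps), (pacts b m).length ≤ 8 * (m.2.2.1 + 1) ∧
  piters b m ≤ 24 * (m.2.2.1 + 1) ∧ ∀ a ∈ pacts b m, a.1 ≠ 10

/-- The control of the passes is computable in polynomial time. -/
def PPT : Prop := ∀ {α : Type} [Enc α] {b u : α → ℕ} {m : α → Ps}, PT ∅ b → PBd b → PT ∅ m →
  PT ∅ u → PT ∅ (fun a => plen (m a)) ∧ PT ∅ fun a => pins (b a) (m a) (u a)

end Vale.Agent.P338Z
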