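import Vale.Agent.P338Z.Ps.Defs
import Mathlib.Data.List.Sort

/-!
P338 power saving: coloured permutations.
-/

namespace Vale.Agent.P338Z

open Vale.Agent.P338.R3.H968 Vale.Agent.P338.R3.H898
open Vale.Agent.P338.R3.H313

namespace PermH

variable (P : CPar) (D : DS)

/-- the data with given array and stacks -/
def st (l r A B : List Cell) : DS := { D with X := ⟨l, r⟩, A := A, B := B }

/-- the selected cells -/
def pick (n : ℕ) (s : Sel) : List ℕ := (List.range n).filter (sev s)

theorem pick_succ (n : ℕ) (s : Sel) :
    pick (n + 1) s = pick n s ++ if sev s n then [n] else [] := by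
  unfold pick
  rw [List.range_succ, List.filter_append]
  by_cases h : sev s n <;> simp [h]

theorem arr_succ (n : ℕ) (F : ℕ → Cell) : arr (n + 1) F = arr n F ++ [F n] := by
  simp [arr, List.range_succ]

theorem back (A B l x r : List Cell) :
    Ex P (List.replicate x.length aL) (st D (x ++ l) r A B) (st D l (x.reverse ++ r) A B) := by
  induction x generalizing r with
  | nil => exact .nil _
  | cons c x ih =>
    rw [List.length_cons, List.replicate_succ, List.reverse_cons, List.append_assoc]
    exact .cons (.mvL _ c (x ++ l) r rfl) (ih (c :: r))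

theorem flip (l r A B x : List Cell) :
    Ex P (List.replicate x.length aTr) (st D l r (x ++ A) B) (st D l r A (x.reverse ++ B)) := by
  induction x generalizing B with
  | nil => exact .nil _
  | cons c x ih =>
    rw [List.length_cons, List.replicate_succ, List.reverse_cons, List.append_assoc]
    exact .cons (.tr _ c (x ++ A) rfl) (ih (c :: B))

theorem pacts_eq (b : ℕ) (m : Ps) (h : m.1 = 1 ∨ m.1 = 3) : pacts b m =
    ((List.range m.2.2.1).flatMap fun u => Ctl.reps (pins b m u)) ++
      List.replicate m.2.2.1 aL := by
  have h0 : m.1 ≠ 0 := by omega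
  have h2 : m.1 ≠ 2 := by omega
  have h5 : m.1 ≠ 5 := by omega
  simp [pacts, plen, h0, h2, h5, List.range_succ, pins, Ctl.reps, Ctl.rep]

theorem cut (l r A B : List Cell) (c : Cell) : Ex P [aPushR, aL, aPushR, aTr, aL, aSubR]
    (st D l (c :: r) A B) (st D (cZero :: l) r (c :: A) B) := by
  rw [show cZero = cSub c c from funext fun _ => (sub_self _).symm]
  exact .cons (.pushR _ c l r rfl) (.cons (.mvL _ c l r rfl) (.cons (.pushR _ c l r rfl)
    (.cons (.tr _ c (c :: A) rfl) (.cons (.mvL _ c l r rfl) (.one (.subR _ c c l r B rfl rfl))))))

theorem gat0 (N : ℕ) (s : Sel) (l A B : List Cell) (F : ℕ → Cell) (n : ℕ) (hn : n ≤ N)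
    (r : List Cell) :
    Ex P ((List.range n).flatMap fun u => Ctl.reps (pins P.b (pGat 1 N s) u))
      (st D l (arr n F ++ r) A B)
      (st D ((arr n fun u => if sev s u then cZero else F u).reverse ++ l) r
        (((pick n s).map F).reverse ++ A) B) := by
  induction n generalizing r with
  | zero => exact .nil _
  | succ n ih =>
    rw [List.range_succ, List.flatMap_append, arr_succ, arr_succ, List.append_assoc, pick_succ]
    refine (ih (by omega) _).append ?_
    have h1 : ¬ N ≤ n := by omega
    by_cases h : sev s n
    · simp [pGat, pins, h, h1, Ctl.reps, Ctl.rep]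
      exact cut P D _ r _ B (F n)
    · simp [pGat, pins, h, h1, Ctl.reps, Ctl.rep]
      exact .one (.mvR _ _ _ _ rfl)

theorem gat (N : ℕ) (s : Sel) (l r A B : List Cell) (F : ℕ → Cell) :
    Ex P (pacts P.b (pGat 1 N s)) (st D l (arr N F ++ r) A B)
      (st D l (arr N (fun u => if sev s u then cZero else F u) ++ r)
        (((pick N s).map F).reverse ++ A) B) := by
  rw [pacts_eq _ _ (.inl rfl)]
  refine (gat0 P D N s l A B F N le_rfl r).append ?_
  have h := back P D (((pick N s).map F).reverse ++ A) B l
    (arr N fun u => if sev s u then cZero else F u).reverse r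
  rwa [List.length_reverse, length_arr, List.reverse_reverse] at h

theorem sct0 (N : ℕ) (s : Sel) (l A : List Cell) (F G : ℕ → Cell) (n : ℕ) (hn : n ≤ N)
    (r B : List Cell) :
    Ex P ((List.range n).flatMap fun u => Ctl.reps (pins P.b (pSct 0 N s) u))
      (st D l (arr n F ++ r) A ((pick n s).map G ++ B))
      (st D ((arr n fun u => if sev s u then cAdd (F u) (G u) else F u).reverse ++ l) r A B) := by
  induction n generalizing r B with
  | zero => exact .nil _
  | succ n ih =>
    rw [List.range_succ, List.flatMap_append, arr_succ, arr_succ, List.append_assoc, pick_succ,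
      List.map_append, List.append_assoc]
    refine (ih (by omega) _ _).append ?_
    have h1 : ¬ N ≤ n := by omega
    by_cases h : sev s n
    · simp [pSct, pins, h, h1, Ctl.reps, Ctl.rep]
      exact .one (.addR _ _ _ _ _ _ rfl rfl)
    · simp [pSct, pins, h, h1, Ctl.reps, Ctl.rep]
      exact .one (.mvR _ _ _ _ rfl)

theorem sct (N : ℕ) (s : Sel) (l r A B : List Cell) (F G : ℕ → Cell) :
    Ex P (pacts P.b (pSct 0 N s)) (st D l (arr N F ++ r) A ((pick N s).map G ++ B))
      (st D l (arr N (fun u => if sev s u then cAdd (F u) (G u) else F u) ++ r) A B) := by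
  rw [pacts_eq _ _ (.inr rfl)]
  refine (sct0 P D N s l A F G N le_rfl r B).append ?_
  have h := back P D A B l
    (arr N fun u => if sev s u then cAdd (F u) (G u) else F u).reverse r
  rwa [List.length_reverse, length_arr, List.reverse_reverse] at h

theorem cnt (col : ℕ → ℕ) (k : ℕ) (L : List ℕ) : L.countP (fun u => col u < k + 1) =
    L.countP (fun u => col u < k) + L.countP fun u => col u = k := by
  induction L with
  | nil => rfl
  | cons a L ih =>
    simp only [List.countP_cons, ih, decide_eq_true_eq]
    split_ifs <;> omega

end PermH

open PermH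

theorem perm : PERM := by
  intro P N c s s' π col h1 h2 h3 h4 h5 h6 D l r F
  have inj : ∀ u < N, ∀ v < N, π u = π v → u = v := fun u hu v hv e => by
    have k := h5 v hv _ (h3 u hu)
    rw [← e, h5 u hu _ (h3 u hu)] at k
    have k' : col v = col u := by simpa using k
    rcases lt_trichotomy u v with h | h | h
    · exact absurd e (h6 u v h hv k'.symm).ne
    · exact h
    · exact absurd e (h6 v u h hu k').ne'
  choose! τ t1 t2 using h2
  have t3 : ∀ u < N, τ (π u) = u := fun u hu =>
    inj _ (t1 _ (h1 u hu)) _ hu (t2 _ (h1 u hu))
  have mp : ∀ s u, u ∈ pick N s ↔ u < N ∧ sev s u = true := fun s u => by simp [pick]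
  have pw : ∀ s, (pick N s).Pairwise (· < ·) := fun s => List.pairwise_lt_range.filter _
  have pk : ∀ k < c, (pick N (s k)).map F = (pick N (s' k)).map fun v => F (τ v) := by
    intro k hk
    have e : pick N (s' k) = (pick N (s k)).map π := by
      refine (pw _).eq_of_mem_iff (List.pairwise_map.2 ((pw _).imp_of_mem ?_)) fun v => ?_
      · intro u v hu hv h
        rw [mp] at hu hv
        have a1 := h4 u hu.1 k hk
        have a2 := h4 v hv.1 k hk
        rw [hu.2] at a1
        rw [hv.2] at a2
        exact h6 u v h hv.1 ((of_decide_eq_true a1.symm).trans (of_decide_eq_true a2.symm).symm)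
      · rw [mp, List.mem_map]
        constructor
        · rintro ⟨a1, a2⟩
          refine ⟨τ v, (mp _ _).2 ⟨t1 v a1, ?_⟩, t2 v a1⟩
          rw [h4 _ (t1 v a1) k hk, ← h5 _ (t1 v a1) k hk, t2 v a1, a2]
        · rintro ⟨u, a1, rfl⟩
          rw [mp] at a1
          exact ⟨h1 u a1.1, by rw [h5 u a1.1 k hk, ← h4 u a1.1 k hk, a1.2]⟩
    rw [e, List.map_map]
    exact List.map_congr_left fun u hu => congrArg F (t3 u ((mp _ _).1 hu).1).symm
  let Z : ℕ → List Cell := fun k => (List.range k).flatMap fun j => (pick N (s j)).map F
  have Zs : ∀ k, Z (k + 1) = Z k ++ (pick N (s k)).map F := fun k => by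
    simp [Z, List.range_succ]
  have len : ∀ k ≤ c, (Z k).length = (List.range N).countP fun u => col u < k := by
    intro k
    induction k with
    | zero => intro _; simp [Z]
    | succ k ih =>
      intro hk
      rw [Zs, List.length_append, ih (by omega), cnt, List.length_map, pick,
        ← List.countP_eq_length_filter]
      exact congrArg _ (List.countP_congr fun u hu => by
        rw [h4 u (List.mem_range.1 hu) k hk])
  have lc : (Z c).reverse.length = N := by
    rw [List.length_reverse, len c le_rfl, List.countP_eq_length.2, List.length_range]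
    exact fun u hu => decide_eq_true (h3 u (List.mem_range.1 hu))
  have g : ∀ k ≤ c, Ex P (acts P.b ((List.range k).map fun k => pGat 1 N (s k)))
      (st D l (arr N F ++ r) D.A D.B)
      (st D l (arr N (fun u => if col u < k then cZero else F u) ++ r)
        ((Z k).reverse ++ D.A) D.B) := by
    intro k
    induction k with
    | zero => exact fun _ => .nil _
    | succ k ih =>
      intro hk
      rw [List.range_succ, List.map_append, acts_append]
      refine (ih (by omega)).append ?_
      have h := gat P D N (s k) l r ((Z k).reverse ++ D.A) D.B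
        fun u => if col u < k then cZero else F u
      have e1 : (pick N (s k)).map (fun u => if col u < k then cZero else F u) =
          (pick N (s k)).map F := List.map_congr_left fun u hu => by
        rw [mp] at hu
        have a := h4 u hu.1 k hk
        rw [hu.2] at a
        rw [if_neg (of_decide_eq_true a.symm).not_lt]
      have e2 : arr N (fun u => if sev (s k) u then cZero else if col u < k then cZero else F u) =
          arr N fun u => if col u < k + 1 then cZero else F u := arr_congr fun u hu => by
        simp only [h4 u hu k hk, decide_eq_true_eq]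
        split_ifs <;> first | rfl | omega
      rw [e1, e2, ← List.append_assoc, ← List.reverse_append, ← Zs] at h
      simpa [acts] using h
  have f : ∀ k ≤ c, ∀ B, Ex P (acts P.b ((List.range k).map fun k => pSct 0 N (s' k)))
      (st D l (arr N (fun _ => cZero) ++ r) D.A (Z k ++ B))
      (st D l (arr N (fun v => if col (τ v) < k then F (τ v) else cZero) ++ r) D.A B) := by
    intro k
    induction k with
    | zero => exact fun _ _ => .nil _
    | succ k ih =>
      intro hk B
      rw [List.range_succ, List.map_append, acts_append, Zs, List.append_assoc]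
      refine (ih (by omega) _).append ?_
      have h := sct P D N (s' k) l r D.A B (fun v => if col (τ v) < k then F (τ v) else cZero)
        fun v => F (τ v)
      have e2 : arr N (fun v => if sev (s' k) v then
          cAdd (if col (τ v) < k then F (τ v) else cZero) (F (τ v))
          else if col (τ v) < k then F (τ v) else cZero) =
          arr N fun v => if col (τ v) < k + 1 then F (τ v) else cZero := arr_congr fun v hv => by
        have a := h5 _ (t1 v hv) k hk
        rw [t2 v hv] at a
        simp only [a, decide_eq_true_eq]
        split_ifs <;> first | rfl | omega | exact funext fun _ => zero_add _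
      rw [e2, ← pk k hk] at h
      simpa [acts] using h
  refine ⟨fun v => if col (τ v) < c then F (τ v) else cZero, .of_ex ?_, fun u hu => by
    simp only [t3 u hu, h3 u hu, if_true]⟩
  have g1 := g c le_rfl
  rw [arr_congr (G := fun _ => cZero) fun u hu => if_pos (h3 u hu)] at g1
  have g2 := flip P D l (arr N (fun _ => cZero) ++ r) D.A D.B (Z c).reverse
  rw [lc, List.reverse_reverse] at g2
  rw [permL, acts_append, acts_append]
  refine g1.append (Ex.append ?_ (f c le_rfl D.B))
  simpa [acts, pacts, plen, pFlp, pins, Ctl.reps, Ctl.rep] using g2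

end Vale.Agent.P338Z
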