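import Vale.Agent.P338Z.Ps.Defs

/-!
P338 power saving: the gather, flip and scatter passes at the level of lists.
-/

namespace Vale.Agent.P338Z.Sw

open Vale.Agent.P338.R3.H968 Vale.Agent.P338.R3.H898
open Vale.Agent.P338.R3.H313

/-- The state with the given array and stacks. -/
def st (D : DS) (l r A B : List Cell) : DS := { D with X := ⟨l, r⟩, A := A, B := B }

theorem blk_eq (D : DS) (l r : List Cell) (N : ℕ) (F : ℕ → Cell) :
    blk D l N F r = st D l (arr N F ++ r) D.A D.B := rfl

/-- The selected addresses below `N`, in increasing order. -/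
def sel (s : Sel) (N : ℕ) : List ℕ := (List.range N).filter (sev s)

theorem sel_succ (s : Sel) (N : ℕ) :
    sel s (N + 1) = sel s N ++ if sev s N then [N] else [] := by
  rw [sel, List.range_succ, List.filter_append, List.filter_singleton]
  cases sev s N <;> rfl

theorem mem_sel {s : Sel} {N u : ℕ} : u ∈ sel s N ↔ u < N ∧ sev s u = true := by
  simp [sel]

theorem sel_sorted (s : Sel) (N : ℕ) : (sel s N).Pairwise (· < ·) :=
  List.pairwise_lt_range.filter _

variable {P : CPar} (D : DS)

theorem rewind (c l r A B : List Cell) :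
    Ex P (List.replicate c.length aL) (st D (c ++ l) r A B) (st D l (c.reverse ++ r) A B) := by
  induction c generalizing r with
  | nil => exact .nil _
  | cons x c ih =>
    rw [List.length_cons, List.replicate_succ, List.reverse_cons, List.append_assoc]
    exact .cons (.mvL _ x (c ++ l) r rfl) (ih (x :: r))

theorem arr_succ (N : ℕ) (F : ℕ → Cell) : arr (N + 1) F = arr N F ++ [F N] := by
  simp [arr, List.range_succ]

theorem fwd (body : ℕ → List Act) (F F' : ℕ → Cell) (A B : ℕ → List Cell) (N : ℕ)
    (h : ∀ u < N, ∀ l r, Fx P (body u) (st D l (F u :: r) (A u) (B u))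
      (st D (F' u :: l) r (A (u + 1)) (B (u + 1)))) (l r : List Cell) :
    Fx P ((List.range N).flatMap body) (st D l (arr N F ++ r) (A 0) (B 0))
      (st D ((arr N F').reverse ++ l) r (A N) (B N)) := by
  induction N generalizing r with
  | zero => exact Fx.refl P _
  | succ N ih =>
    rw [List.range_succ, List.flatMap_append, List.flatMap_singleton, arr_succ, arr_succ,
      List.append_assoc, List.reverse_append, List.append_assoc]
    exact (ih (fun u hu => h u (hu.trans N.lt_succ_self)) _).append (h N N.lt_succ_self _ _)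

/-- A pass over the block followed by the rewind. -/
theorem sweep (m : Ps) (F F' : ℕ → Cell) (A B : ℕ → List Cell)
    (hm : m.1 ≠ 0 ∧ m.1 ≠ 2 ∧ m.1 ≠ 5)
    (h : ∀ u < m.2.2.1, ∀ l r, Fx P (Ctl.reps (pins P.b m u)) (st D l (F u :: r) (A u) (B u))
      (st D (F' u :: l) r (A (u + 1)) (B (u + 1)))) (l r : List Cell) :
    Fx P (pacts P.b m) (st D l (arr m.2.2.1 F ++ r) (A 0) (B 0))
      (st D l (arr m.2.2.1 F' ++ r) (A m.2.2.1) (B m.2.2.1)) := by
  have h1 : pacts P.b m = ((List.range m.2.2.1).flatMap fun u => Ctl.reps (pins P.b m u)) ++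
      List.replicate m.2.2.1 aL := by
    simp [pacts, plen, hm, List.range_succ, pins, Ctl.reps, Ctl.rep]
  have h2 := rewind (P := P) D (arr m.2.2.1 F').reverse l r (A m.2.2.1) (B m.2.2.1)
  rw [List.length_reverse, length_arr, List.reverse_reverse] at h2
  rw [h1]
  exact (fwd D _ F F' A B _ h l r).append (.of_ex h2)

theorem skip (c : Cell) (l r A B : List Cell) :
    Fx P [aR] (st D l (c :: r) A B) (st D (c :: l) r A B) := .of_ex (.one (.mvR _ c l r rfl))

theorem cSub_self (c : Cell) : cSub c c = cZero := funext fun _ => sub_self _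

theorem push (c : Cell) (l r A B : List Cell) :
    Ex P [aPushR] (st D l (c :: r) A B) (st D (c :: l) r (c :: A) B) := .one (.pushR _ c l r rfl)

theorem clear (c : Cell) (l r A B : List Cell) :
    Ex P [aPushR, aTr, aL, aSubR] (st D l (c :: r) A B) (st D (cZero :: l) r A B) := by
  rw [← cSub_self c]
  exact .cons (.pushR _ c l r rfl) (.cons (.tr _ c A rfl) (.cons (.mvL _ c l r rfl)
    (.one (.subR _ c c l r B rfl rfl))))

theorem move (c : Cell) (l r A B : List Cell) :
    Ex P [aPushR, aL, aPushR, aTr, aL, aSubR] (st D l (c :: r) A B)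
      (st D (cZero :: l) r (c :: A) B) :=
  (push D c l r A B).append (.cons (.mvL _ c l r rfl) (clear D c l r (c :: A) B))

theorem pop (o : ℕ) (c y : Cell) (l r A B : List Cell) :
    Fx P [if o = 0 then aAddR else if o = 1 then aSubR else aXor] (st D l (c :: r) A (y :: B))
      (st D (opC P o c y :: l) r A B) := by
  unfold opC
  split_ifs
  · exact .one (.old (.addR _ _ _ l r _ rfl rfl))
  · exact .one (.old (.subR _ _ _ l r _ rfl rfl))
  · exact .one (.xorR _ _ _ l r _ rfl rfl)

variable (N : ℕ) (s : Sel) (F : ℕ → Cell) (l r A B : List Cell)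

theorem push_succ (u : ℕ) : ((sel s (u + 1)).map F).reverse ++ A =
    if sev s u then F u :: (((sel s u).map F).reverse ++ A) else ((sel s u).map F).reverse ++ A := by
  rw [sel_succ]
  cases sev s u <;> simp

/-- Gather: the cells are kept. -/
theorem gat0 : Fx P (pacts P.b (pGat 0 N s)) (st D l (arr N F ++ r) A B)
    (st D l (arr N F ++ r) (((sel s N).map F).reverse ++ A) B) := by
  refine sweep D (pGat 0 N s) F F (fun u => ((sel s u).map F).reverse ++ A) (fun _ => B)
    (by simp [pGat]) (fun u hu l r => ?_) l r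
  have hu' : ¬ N ≤ u := not_le.2 hu
  simp only [push_succ]
  cases h : sev s u
  · simpa [pins, pGat, hu', h, Ctl.reps, Ctl.rep] using skip D _ _ _ _ _
  · simpa [pins, pGat, hu', h, Ctl.reps, Ctl.rep] using Fx.of_ex (push D _ _ _ _ _)

/-- Gather: the selected cells are cleared. -/
theorem gat1 : Fx P (pacts P.b (pGat 1 N s)) (st D l (arr N F ++ r) A B)
    (st D l (arr N (fun u => if sev s u then cZero else F u) ++ r)
      (((sel s N).map F).reverse ++ A) B) := by
  refine sweep D (pGat 1 N s) F _ (fun u => ((sel s u).map F).reverse ++ A) (fun _ => B)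
    (by simp [pGat]) (fun u hu l r => ?_) l r
  have hu' : ¬ N ≤ u := not_le.2 hu
  simp only [push_succ]
  cases h : sev s u
  · simpa [pins, pGat, hu', h, Ctl.reps, Ctl.rep] using skip D _ _ _ _ _
  · simpa [pins, pGat, hu', h, Ctl.reps, Ctl.rep] using Fx.of_ex (move D _ _ _ _ _)

/-- The selected cells are cleared. -/
theorem gat2 : Fx P (pacts P.b (pGat 2 N s)) (st D l (arr N F ++ r) A B)
    (st D l (arr N (fun u => if sev s u then cZero else F u) ++ r) A B) := by
  refine sweep D (pGat 2 N s) F _ (fun _ => A) (fun _ => B)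
    (by simp [pGat]) (fun u hu l r => ?_) l r
  have hu' : ¬ N ≤ u := not_le.2 hu
  cases h : sev s u
  · simpa [pins, pGat, hu', h, Ctl.reps, Ctl.rep] using skip D _ _ _ _ _
  · simpa [pins, pGat, hu', h, Ctl.reps, Ctl.rep] using Fx.of_ex (clear D _ _ _ _ _)

theorem trs (C : List Cell) : Ex P (List.replicate C.length aTr) (st D l r (C ++ A) B)
    (st D l r A (C.reverse ++ B)) := by
  induction C generalizing B with
  | nil => exact .nil _
  | cons x c ih =>
    rw [List.length_cons, List.replicate_succ, List.reverse_cons, List.append_assoc]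
    exact .cons (.tr _ x (c ++ A) rfl) (ih (x :: B))

/-- Flip. -/
theorem flp (C : List Cell) {n : ℕ} (h : C.length = n) :
    Fx P (pacts P.b (pFlp n)) (st D l r (C ++ A) B) (st D l r A (C.reverse ++ B)) := by
  subst h
  simpa [pacts, plen, pins, pFlp, Ctl.reps, Ctl.rep] using Fx.of_ex (trs D l r A B C)

/-- Scatter: the cells `G u` for the selected `u` are popped from `B`. -/
theorem sct (o : ℕ) (G : ℕ → Cell) :
    Fx P (pacts P.b (pSct o N s)) (st D l (arr N F ++ r) A ((sel s N).map G ++ B))
      (st D l (arr N (fun u => if sev s u then opC P o (F u) (G u) else F u) ++ r) A B) := by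
  have key := sweep (P := P) D (pSct o N s) F
    (fun u => if sev s u then opC P o (F u) (G u) else F u)
    (fun _ => A) (fun u => (((List.range N).drop u).filter (sev s)).map G ++ B)
    (by simp [pSct]) (fun u hu l r => ?_) l r
  · have e : (List.range N).drop N = [] := List.drop_eq_nil_of_le (by simp)
    simpa [pSct, sel, e] using key
  have hu0 : u < N := hu
  have hu' : ¬ N ≤ u := not_le.2 hu
  have h1 : (List.range N).drop u = u :: (List.range N).drop (u + 1) := by
    rw [List.drop_eq_getElem_cons (by simpa using hu0), List.getElem_range]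
  rw [h1]
  cases h : sev s u
  · simpa [pins, pSct, hu', h, Ctl.reps, Ctl.rep] using skip D _ _ _ _ _
  · have e : Ctl.reps (pins P.b (pSct o N s) u) =
        [if o = 0 then aAddR else if o = 1 then aSubR else aXor] := by
      by_cases h0 : o = 0 <;> by_cases h2 : o = 1 <;>
        simp [pins, pSct, hu', h, Ctl.reps, Ctl.rep, h0, h2]
    rw [e]
    simpa [h] using pop D o _ _ _ _ _ _

/-- An enumeration lists the selected addresses. -/
theorem sel_enum {N n : ℕ} {s : Sel} {σ : ℕ → ℕ} (h : Enum N n s σ) :
    sel s N = (List.range n).map σ := by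
  refine List.Pairwise.eq_of_mem_iff (r := (· < ·)) (sel_sorted s N) ?_ fun u => ?_
  · rw [List.pairwise_map]
    exact List.pairwise_lt_range.imp_of_mem fun _ hb k => h.mono _ _ k (List.mem_range.1 hb)
  · simp only [mem_sel, List.mem_map, List.mem_range]
    exact ⟨fun k => (h.sel u k.1).1 k.2, fun ⟨k, a, b⟩ =>
      ⟨b ▸ h.lt k a, (h.sel u (b ▸ h.lt k a)).2 ⟨k, a, b⟩⟩⟩

end Vale.Agent.P338Z.Sw
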